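import Mathlib.GroupTheory.ResiduallyFinite
import Mathlib.GroupTheory.SemidirectProduct
import Mathlib.GroupTheory.FreeGroup.Basic
import Mathlib.GroupTheory.GroupAction.Quotient
import Mathlib.Logic.Equiv.Fintype
import Mathlib.Data.Fintype.Perm
import Mathlib.Data.Set.Finite.Basic
import Mathlib.Data.List.Infix
import Mathlib.Tactic.Group

/-!
P173 (helper6): free groups, right-angled Artin groups and their semidirect products with groups of
graph automorphisms are residually finite.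
-/

set_option linter.all false

namespace Vale.Agent.P173FR

open Group Subgroup SemidirectProduct

variable {G N Q B V : Type} [Group G] [Group N] [Group Q] [Group B]

theorem rf_of_sub (h : ∀ g : G, g ≠ 1 → ∃ N : Subgroup G, N.FiniteIndex ∧ ∀ hg : g ∈ N,
    ∃ (B : Type) (_ : Group B) (_ : ResiduallyFinite B) (f : N →* B), f ⟨g, hg⟩ ≠ 1) :
    ResiduallyFinite G := residuallyFinite_iff_exists_finiteIndex.2 fun g hg => by
  obtain ⟨N, hN, h1⟩ := h g hg
  by_cases e : g ∈ N
  · obtain ⟨B, _, _, f, h2⟩ := h1 e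
    obtain ⟨M, h3⟩ := exists_finiteIndexNormalSubgroup_notMem _ h2
    refine ⟨(M.comap f).toSubgroup.map N.subtype, ⟨?_⟩, ?_⟩
    · rw [index_map_subtype]
      exact mul_ne_zero FiniteIndex.index_ne_zero hN.1
    · rintro ⟨x, h4, rfl⟩
      exact h3 h4
  · exact ⟨N, hN, e⟩

theorem rf_of_hom (h : ∀ g : G, g ≠ 1 →
    ∃ (B : Type) (_ : Group B) (_ : ResiduallyFinite B) (f : G →* B), f g ≠ 1) :
    ResiduallyFinite G := rf_of_sub fun g hg => ⟨⊤, inferInstance, fun _ => by
  obtain ⟨B, _, _, f, h1⟩ := h g hg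
  exact ⟨B, _, ‹_›, f.comp (⊤ : Subgroup G).subtype, h1⟩⟩

theorem rf_sd [ResiduallyFinite Q] [ResiduallyFinite B] {φ : Q →* MulAut N}
    (h : ∀ a : N, a ≠ 1 → ∃ K : Subgroup Q, K.FiniteIndex ∧ ∃ ρ : N →* B, ρ a ≠ 1 ∧
      ∀ k ∈ K, ∀ b, ρ (φ k b) = ρ b) : ResiduallyFinite (N ⋊[φ] Q) := rf_of_sub fun g hg => by
  by_cases e : g.right = 1
  · obtain ⟨K, hK, ρ, h1, h2⟩ := h g.left fun e' => hg (SemidirectProduct.ext e' e)
    refine ⟨K.comap rightHom, ⟨?_⟩, fun _ => ⟨B, _, ‹_›, MonoidHom.mk' (fun x => ρ x.1.left)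
      fun x y => ?_, h1⟩⟩
    · rw [index_comap_of_surjective _ rightHom_surjective]
      exact hK.1
    · rw [coe_mul, mul_left, map_mul, h2 x.1.right x.2]
  · exact ⟨⊤, inferInstance, fun _ => ⟨Q, _, ‹_›, rightHom.comp (⊤ : Subgroup _).subtype, e⟩⟩

theorem rf_free (X : Type) : ResiduallyFinite (FreeGroup X) :=
  residuallyFinite_of_forall_exists_finite_monoidHom.{0} fun w hw => by
    classical
    obtain ⟨L, rfl⟩ := Quot.exists_rep w
    let P : Set (FreeGroup X) := FreeGroup.mk '' {l | l <:+ L}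
    have : Finite P := ((L.tails.finite_toSet.subset fun l (h : l <:+ L) =>
      (List.mem_tails l L).2 h).image _).to_subtype
    have h1 : ∀ x, ∃ σ : Equiv.Perm P, ∀ (a : P) (h : FreeGroup.of x * a.1 ∈ P),
        σ a = ⟨_, h⟩ := fun x => by
      obtain ⟨σ, h⟩ := Equiv.Perm.exists_extending_pair
        (fun a : {a : P // FreeGroup.of x * a.1 ∈ P} => a.1) (fun a => (⟨_, a.2⟩ : P))
        Subtype.val_injective fun a b e =>
          Subtype.ext (Subtype.ext (mul_left_cancel (congrArg Subtype.val e)))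
      exact ⟨σ, fun a ha => h ⟨a, ha⟩⟩
    choose σ hσ using h1
    have h0 : (1 : FreeGroup X) ∈ P := ⟨[], List.nil_suffix, rfl⟩
    have h2 : ∀ l (h : l <:+ L), FreeGroup.lift σ (FreeGroup.mk l) ⟨1, h0⟩ =
        ⟨FreeGroup.mk l, l, h, rfl⟩ := fun l => by
      induction l with
      | nil => exact fun _ => rfl
      | cons p l ih =>
        intro h
        have h3 := (List.suffix_cons p l).trans h
        have h4 : FreeGroup.mk (p :: l) = FreeGroup.mk [p] * FreeGroup.mk l := rfl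
        refine (DFunLike.congr_fun ((congrArg _ h4).trans (map_mul _ _ _)) _).trans ?_
        rw [Equiv.Perm.mul_apply, ih h3]
        obtain ⟨x, _ | _⟩ := p
        · have h5 : FreeGroup.mk [(x, false)] = (FreeGroup.of x)⁻¹ := rfl
          have h6 : FreeGroup.mk l = FreeGroup.of x * FreeGroup.mk ((x, false) :: l) := by
            rw [h4, h5, mul_inv_cancel_left]
          rw [h5, map_inv, FreeGroup.lift_apply_of, Equiv.Perm.inv_eq_iff_eq, hσ x _ ⟨l, h3, h6⟩]
          exact Subtype.ext h6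
        · exact (DFunLike.congr_fun (FreeGroup.lift_apply_of (f := σ) (x := x)) _).trans
            (hσ x _ ⟨_, h, rfl⟩)
    refine ⟨Equiv.Perm P, _, inferInstance, FreeGroup.lift σ, fun e => hw ?_⟩
    have h6 := h2 L (List.suffix_refl L)
    rw [show FreeGroup.lift σ (FreeGroup.mk L) = 1 from e] at h6
    exact (congrArg Subtype.val h6).symm

/-- `N` is the right-angled Artin group of the graph `adj`, with generators `of`. -/
structure IsRaag (adj : V → V → Prop) (of : V → N) : Prop where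
  comm : ∀ u v, adj u v → Commute (of u) (of v)
  gen : closure (Set.range of) = ⊤
  lift : ∀ (H : Type) [Group H] (f : V → H), (∀ u v, adj u v → Commute (f u) (f v)) →
    ∃ F : N →* H, ∀ v, F (of v) = f v

theorem isRaag_free (X : Type) : IsRaag (fun _ _ : X => False) FreeGroup.of :=
  ⟨fun _ _ h => h.elim, FreeGroup.closure_range_of X,
    fun _ _ f _ => ⟨FreeGroup.lift f, fun _ => FreeGroup.lift_apply_of⟩⟩

namespace IsRaag

variable {adj : V → V → Prop} {of : V → N} (h : IsRaag adj of)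
include h

theorem fin (a : N) : ∃ S : Finset V, a ∈ closure (of '' S) := by
  classical
  have ha : a ∈ closure (Set.range of) := h.gen ▸ mem_top a
  induction ha using closure_induction with
  | mem x hx => obtain ⟨v, rfl⟩ := hx; exact ⟨{v}, subset_closure ⟨v, by simp, rfl⟩⟩
  | one => exact ⟨∅, one_mem _⟩
  | mul x y _ _ h1 h2 =>
    obtain ⟨S, h1⟩ := h1
    obtain ⟨T, h2⟩ := h2
    exact ⟨S ∪ T, mul_mem (closure_mono (Set.image_mono (by simp)) h1)
      (closure_mono (Set.image_mono (by simp)) h2)⟩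
  | inv x _ h1 => exact h1.imp fun S h1 => inv_mem h1

/-- retractions -/
theorem retr (S : Set V) :
    ∃ r : N →* closure (of '' S), ∀ a (ha : a ∈ closure (of '' S)), r a = ⟨a, ha⟩ := by
  classical
  obtain ⟨r, hr⟩ := h.lift (closure (of '' S))
    (fun v => if hv : v ∈ S then ⟨of v, subset_closure ⟨v, hv, rfl⟩⟩ else 1) fun u v e => by
      split_ifs
      exacts [Subtype.ext (h.comm u v e), Commute.one_right _, Commute.one_left _, Commute.refl _]
  refine ⟨r, fun a ha => Subtype.ext (MonoidHom.eqOn_closure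
    (f := (closure (of '' S)).subtype.comp r) (g := MonoidHom.id N) ?_ ha)⟩
  rintro _ ⟨v, hv, rfl⟩
  rw [MonoidHom.comp_apply, hr, dif_pos hv]; rfl

theorem rf_sd [ResiduallyFinite N] [ResiduallyFinite Q] [MulAction Q V] {φ : Q →* MulAut N}
    (hφ : ∀ q v, φ q (of v) = of (q • v)) (ha : ∀ (q : Q) u v, adj u v → adj (q • u) (q • v))
    (sep : ∀ s s' : V, ∃ K : Subgroup Q, K.FiniteIndex ∧
      ∀ k ∈ K, (k • s = s' → s = s') ∧ (adj (k • s) s' → adj s s')) :
    ResiduallyFinite (N ⋊[φ] Q) := P173FR.rf_sd (B := N) fun a h1 => by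
  classical
  obtain ⟨S, hS⟩ := h.fin a
  choose K' h2 h3 using sep
  obtain ⟨K, hK, h4⟩ : ∃ K : Subgroup Q, K.FiniteIndex ∧ ∀ s ∈ S, ∀ s' ∈ S, K ≤ K' s s' :=
    ⟨⨅ p ∈ S ×ˢ S, K' p.1 p.2, finiteIndex_iInf' _ fun p _ => h2 _ _,
      fun s a s' b => iInf₂_le (s, s') (Finset.mem_product.2 ⟨a, b⟩)⟩
  have h5 : ∀ s ∈ S, ∀ s' ∈ S, ∀ k ∈ K, ∀ k' ∈ K, (k • s = k' • s' → s = s') ∧
      (adj (k • s) (k' • s') → adj s s') := fun s a s' b k c k' d => by
    have h6 := h3 s s' _ (h4 s a s' b (mul_mem (inv_mem d) c))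
    exact ⟨fun e => h6.1 (by rw [mul_smul, e, inv_smul_smul]),
      fun e => h6.2 (by simpa only [mul_smul, inv_smul_smul] using ha k'⁻¹ _ _ e)⟩
  let r : V → N := fun u => if e : ∃ s ∈ S, ∃ k ∈ K, k • s = u then of e.choose else 1
  have h6 : ∀ s ∈ S, ∀ k ∈ K, r (k • s) = of s := fun s a k b => by
    have e : ∃ s' ∈ S, ∃ k' ∈ K, k' • s' = k • s := ⟨s, a, k, b, rfl⟩
    obtain ⟨c, k', d, f⟩ := e.choose_spec
    exact (dif_pos e).trans (congrArg of ((h5 _ c s a k' d k b).1 f))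
  obtain ⟨ρ, hρ⟩ := h.lift N r fun u v e => by
    by_cases e1 : ∃ s ∈ S, ∃ k ∈ K, k • s = u
    · by_cases e2 : ∃ s ∈ S, ∃ k ∈ K, k • s = v
      · obtain ⟨s, a, k, b, rfl⟩ := e1
        obtain ⟨s', c, k', d, rfl⟩ := e2
        rw [h6 s a k b, h6 s' c k' d]
        exact h.comm _ _ ((h5 s a s' c k b k' d).2 e)
      · rw [show r v = 1 from dif_neg e2]; exact Commute.one_right _
    · rw [show r u = 1 from dif_neg e1]; exact Commute.one_left _
  refine ⟨K, hK, ρ, ?_, fun k hk b => DFunLike.congr_fun (MonoidHom.eq_of_eqOn_dense h.gen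
    (f := ρ.comp (φ k).toMonoidHom) (g := ρ) ?_) b⟩
  · rwa [MonoidHom.eqOn_closure (f := ρ) (g := MonoidHom.id N) ?_ hS]
    rintro _ ⟨s, c, rfl⟩
    rw [hρ, ← h6 s c 1 (one_mem _), one_smul]; rfl
  · rintro _ ⟨u, rfl⟩
    change ρ (φ k (of u)) = _
    rw [hφ, hρ, hρ]
    by_cases e1 : ∃ s ∈ S, ∃ k ∈ K, k • s = u
    · obtain ⟨s, a, k', b, rfl⟩ := e1
      rw [← mul_smul, h6 s a _ (mul_mem hk b), h6 s a k' b]
    · rw [show r u = 1 from dif_neg e1]
      exact dif_neg fun ⟨s, a, k', b, e⟩ =>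
        e1 ⟨s, a, _, mul_mem (inv_mem hk) b, by rw [mul_smul, e, inv_smul_smul]⟩

end IsRaag

/-- retracts are separable -/
theorem sep_retr [ResiduallyFinite G] {C : Subgroup G} (r : G →* G) (h1 : ∀ g, r g ∈ C)
    (h2 : ∀ c ∈ C, r c = c) (x x' : G ⧸ C) :
    ∃ K : Subgroup G, K.FiniteIndex ∧ ∀ k ∈ K, k • x = x' → x = x' := by
  obtain ⟨g, rfl⟩ := QuotientGroup.mk_surjective x
  obtain ⟨g', rfl⟩ := QuotientGroup.mk_surjective x'
  by_cases e : (g⁻¹ * g')⁻¹ * r (g⁻¹ * g') = 1
  · exact ⟨⊤, inferInstance, fun _ _ _ => QuotientGroup.eq.2 (inv_mul_eq_one.1 e ▸ h1 _)⟩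
  · obtain ⟨M, hM⟩ := exists_finiteIndexNormalSubgroup_notMem _ e
    refine ⟨M.toSubgroup ⊓ (M.comap r).toSubgroup, inferInstance, fun k hk e' => (hM ?_).elim⟩
    have h3 := h2 _ (QuotientGroup.eq.1 e')
    have h4 : M.toSubgroup.Normal := inferInstance
    have h5 := h4.conj_mem' _ (mul_mem (inv_mem (h4.conj_mem' _ hk.1 g))
      (h4.conj_mem' _ hk.2 (r g))) ((k * g)⁻¹ * g')
    have h6 : r (g⁻¹ * g') = (r g)⁻¹ * r k * r g * ((k * g)⁻¹ * g') := by
      rw [← smul_eq_mul k g, ← h3]; simp [mul_assoc]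
    rw [h6]
    refine (congrArg (· ∈ M.toSubgroup) ?_).mp h5
    group

/-- the action on the free group -/
def fa (Q X : Type) [Group Q] [MulAction Q X] : Q →* MulAut (FreeGroup X) :=
  MonoidHom.mk' (fun q => FreeGroup.freeGroupCongr (MulAction.toPerm q)) fun a b =>
    MulEquiv.toMonoidHom_injective (FreeGroup.ext_hom _ _ fun x => by
      simp [FreeGroup.freeGroupCongr, mul_smul])

theorem fa_of {X : Type} [MulAction Q X] (q : Q) (x : X) :
    fa Q X q (FreeGroup.of x) = FreeGroup.of (q • x) := rfl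

namespace IsRaag

variable {adj : V → V → Prop} {of : V → N} (h : IsRaag adj of)
include h

theorem step {S : Set V} {v : V} (hv : v ∉ S) [ResiduallyFinite (closure (of '' S))] :
    ResiduallyFinite (closure (of '' insert v S)) := by
  classical
  set H := closure (of '' S)
  let T := {u ∈ S | adj u v ∨ adj v u}
  have hT : closure (of '' T) ≤ H := closure_mono (Set.image_mono fun _ a => a.1)
  let C := (closure (of '' T)).subgroupOf H
  obtain ⟨r, hr⟩ := h.retr T
  have := rf_free (H ⧸ C)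
  have : ResiduallyFinite (FreeGroup (H ⧸ C) ⋊[fa H (H ⧸ C)] H) :=
    (isRaag_free _).rf_sd fa_of (fun _ _ _ e => e) fun x x' => by
      obtain ⟨K, h1, h2⟩ := sep_retr (C := C) ((inclusion hT).comp (r.comp H.subtype))
        (fun g => (r g).2) (fun c hc => congrArg (inclusion hT) (hr c hc)) x x'
      exact ⟨K, h1, fun k hk => ⟨h2 k hk, fun e => e⟩⟩
  have h1 : ∀ c ∈ closure (of '' T), c * of v = of v * c := fun c hc =>
    (closure_le (centralizer {of v})).2 (by
      rintro _ ⟨u, hu, rfl⟩ _ rfl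
      exact hu.2.elim (fun e => (h.comm _ _ e).symm) (h.comm _ _)) hc _ rfl |>.symm
  let c : H ⧸ C → N := fun x => x.out * of v * (x.out : N)⁻¹
  have h2 : ∀ g : H, c g = g * of v * (g : N)⁻¹ := fun g => by
    obtain ⟨k, e⟩ := QuotientGroup.mk_out_eq_mul C g
    simp only [c, e, coe_mul]
    rw [mul_assoc (g : N), h1 k.1.1 k.2]
    group
  let Θ := SemidirectProduct.lift (φ := fa H (H ⧸ C)) (FreeGroup.lift c) H.subtype fun g =>
    FreeGroup.ext_hom _ _ fun x => by
      obtain ⟨g', rfl⟩ := QuotientGroup.mk_surjective x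
      simp only [MonoidHom.comp_apply, MulEquiv.coe_toMonoidHom, fa_of, FreeGroup.lift_apply_of,
        MulAction.Quotient.smul_mk, h2, MulAut.conj_apply, smul_eq_mul, coe_mul, coe_subtype]
      group
  have h3 : ∀ u (hu : u ∈ S), adj u v ∨ adj v u →
      Commute (inr ⟨of u, subset_closure ⟨u, hu, rfl⟩⟩ : FreeGroup (H ⧸ C) ⋊[fa H (H ⧸ C)] H)
        (inl (FreeGroup.of ((1 : H) : H ⧸ C))) := fun u hu e => by
    rw [Commute, SemiconjBy, ← mul_inv_eq_iff_eq_mul, ← map_inv, ← inl_aut, fa_of,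
      MulAction.Quotient.smul_mk, smul_eq_mul, mul_one, eq_comm]
    congr 2
    exact QuotientGroup.eq.2 (by
      rw [inv_one, one_mul]; exact subset_closure (k := of '' T) ⟨u, ⟨hu, e⟩, rfl⟩)
  obtain ⟨Ψ, hΨ⟩ := h.lift (FreeGroup (H ⧸ C) ⋊[fa H (H ⧸ C)] H)
    (fun u => if u = v then inl (FreeGroup.of ((1 : H) : H ⧸ C)) else
      if hu : u ∈ S then inr ⟨of u, subset_closure ⟨u, hu, rfl⟩⟩ else 1) fun u u' e => by
      split_ifs with a b c d f g
      · exact Commute.refl _
      · exact (h3 _ c (Or.inr (a ▸ e))).symm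
      · exact Commute.one_right _
      · exact h3 _ d (Or.inl (f ▸ e))
      · exact (map_mul _ _ _).symm.trans ((congrArg _ (Subtype.ext (h.comm _ _ e).eq)).trans
          (map_mul _ _ _))
      · exact Commute.one_right _
      all_goals exact Commute.one_left _
  refine rf_of_hom fun a ha => ⟨_, _, ‹_›, Ψ.comp (Subgroup.subtype _), fun e => ha ?_⟩
  refine Subtype.ext ((MonoidHom.eqOn_closure (f := Θ.comp Ψ) (g := MonoidHom.id N) ?_
    a.2).symm.trans ((congrArg Θ e).trans (map_one Θ)))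
  rintro _ ⟨u, rfl | hu, rfl⟩
  · rw [MonoidHom.comp_apply, hΨ, if_pos rfl, lift_inl, FreeGroup.lift_apply_of, h2]; simp
  · rw [MonoidHom.comp_apply, hΨ, if_neg fun e : u = v => hv (e ▸ hu), dif_pos hu, lift_inr]; rfl

/-- **Right-angled Artin groups are residually finite.** -/
theorem rf : ResiduallyFinite N := rf_of_hom fun a ha => by
  classical
  obtain ⟨S, hS⟩ := h.fin a
  obtain ⟨r, hr⟩ := h.retr S
  refine ⟨_, _, ?_, r, fun e => ha (congrArg Subtype.val ((hr a hS).symm.trans e))⟩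
  clear hS r hr
  induction S using Finset.induction_on with
  | empty => rw [Finset.coe_empty, Set.image_empty, closure_empty]; infer_instance
  | insert v S hv ih => rw [Finset.coe_insert]; exact h.step hv

/-- **Graph wreath products**: `Q` residually finite, and only finitely many `q` move a given vertex
to a given vertex or to one of its neighbours. -/
theorem rf_wr [ResiduallyFinite Q] [MulAction Q V] {φ : Q →* MulAut N}
    (hφ : ∀ q v, φ q (of v) = of (q • v)) (ha : ∀ (q : Q) u v, adj u v → adj (q • u) (q • v))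
    (hf : ∀ s s' : V, {q : Q | q • s = s' ∨ adj (q • s) s'}.Finite) :
    ResiduallyFinite (N ⋊[φ] Q) :=
  have := h.rf
  h.rf_sd hφ ha fun s s' => by
    have h1 : ∀ q : Q, ∃ K : Subgroup Q, K.FiniteIndex ∧ (q ∈ K → q = 1) := fun q => by
      by_cases e : q = 1
      · exact ⟨⊤, inferInstance, fun _ => e⟩
      · exact (residuallyFinite_iff_exists_finiteIndex.1 ‹_› q e).imp fun K a =>
          ⟨a.1, fun b => (a.2 b).elim⟩
    choose K h2 h3 using h1
    refine ⟨⨅ q ∈ (hf s s').toFinset, K q, finiteIndex_iInf' _ fun q _ => h2 q, fun k hk => ?_⟩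
    have h4 : (k • s = s' ∨ adj (k • s) s') → k = 1 := fun e =>
      h3 k (mem_iInf.1 (mem_iInf.1 hk k) ((hf s s').mem_toFinset.2 e))
    exact ⟨fun e => by rwa [h4 (Or.inl e), one_smul] at e,
      fun e => by rwa [h4 (Or.inr e), one_smul] at e⟩

end IsRaag

end Vale.Agent.P173FR
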